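import Vale.Agent.P361.LRO.Defs

/-! P361 LRO, dictionary: thermal ratios with an extra slice, and the statement of the limit of the
magnetisation at the nodes of the circuit. -/

namespace Vale.Agent.P361.LRO

open Finset Matrix

noncomputable section

variable {V : Type} [Fintype V] [DecidableEq V]

/-- The extra slice `∏ (1 + T_x σ³_x)`. -/
def layT (T : V → ℝ) : Matrix (V → Fin 2) (V → Fin 2) ℝ :=
  Matrix.diagonal fun σ => ∏ x, (1 + T x * (if σ x = 0 then 1 else -1))

/-- The magnetisation at `x` at time `t` (`s + t = β`) with the extra slice `T` at time `0`. -/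
def mT (L : List (V × V)) (h T : V → ℝ) (s t : ℝ) (x : V) : ℝ :=
  trace (layT T * NormedSpace.exp (-s • ham L h) * szM x * NormedSpace.exp (-t • ham L h)) /
    trace (layT T * NormedSpace.exp (-s • ham L h) * NormedSpace.exp (-t • ham L h))

/-- (D3) The limit of the magnetisation at the nodes, uniformly in the fields. -/
def MagLim (L : List (V × V)) (β : ℝ) : Prop :=
  ∃ (C : ℝ) (N0 : ℕ), ∀ N : ℕ, N0 ≤ N → ∀ h T : V → ℝ, (∀ x, 0 ≤ h x ∧ h x ≤ 1) →
    (∀ x, 0 ≤ T x ∧ T x ≤ 1) → ∀ z : Fin (N + 1) × V, z.1 ≠ 0 →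
      |mag (phys L β N) (th β N h T) z -
        mT L h T (β * (1 - ((z.1 : ℕ) : ℝ) / N)) (β * (((z.1 : ℕ) : ℝ) / N)) z.2| ≤ C / N

end

end Vale.Agent.P361.LRO
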