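import Vale.Agent.P361.LRO.Dict.Base
import Vale.Agent.P361.LRO.Bridge.Tens

/-!
P361 LRO, dictionary: the quantities of the charge network as loop sums `NZ`, in the charge picture
and in the `S³`-picture.
-/

namespace Vale.Agent.P361.LRO.Dict

open Finset Matrix

noncomputable section

set_option linter.unusedSectionVars false

/-! ### One-site matrices -/

section mats

variable {R : Type*} [CommRing R]

/-- `σ³`. -/
def m3 : Matrix (Fin 2) (Fin 2) R := !![1, 0; 0, -1]

/-- `σ¹`. -/
def m1 : Matrix (Fin 2) (Fin 2) R := !![0, 1; 1, 0]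

/-- `s - s'`. -/
def mJ : Matrix (Fin 2) (Fin 2) R := !![0, -1; 1, 0]

/-- Slice in the charge picture. -/
def chM (θ : R) : Matrix (Fin 2) (Fin 2) R := !![1, θ; θ, 1]

/-- Slice in the `S³`-picture. -/
def dgM (θ : R) : Matrix (Fin 2) (Fin 2) R := !![1 + θ, 0; 0, 1 - θ]

theorem chM_apply (θ : R) (a b : Fin 2) : chM θ a b = if a = b then 1 else θ := by
  fin_cases a <;> fin_cases b <;> simp [chM]

theorem m1_apply (a b : Fin 2) : (m1 : Matrix (Fin 2) (Fin 2) R) a b = if a = b then 0 else 1 := by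
  fin_cases a <;> fin_cases b <;> simp [m1]

theorem mJ_apply (a b : Fin 2) : (mJ : Matrix (Fin 2) (Fin 2) ℝ) a b = ((a : ℕ) : ℝ) - ((b : ℕ) : ℝ) := by
  fin_cases a <;> fin_cases b <;> simp [mJ]

theorem dgM_ne (θ : R) {a b : Fin 2} (h : a ≠ b) : dgM θ a b = 0 := by
  fin_cases a <;> fin_cases b <;> simp_all [dgM]

/-- Hadamard. -/
def mH : Matrix (Fin 2) (Fin 2) ℝ := !![1, 1; 1, -1]

def mW : Matrix (Fin 2) (Fin 2) ℝ := !![1 / 2, 1 / 2; 1 / 2, -(1 / 2)]

theorem mW_mH : mW * mH = 1 := by
  ext a b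
  fin_cases a <;> fin_cases b <;> simp [mW, mH, Matrix.mul_apply, Fin.sum_univ_two] <;> norm_num

theorem mH_mW : mH * mW = 1 := by
  ext a b
  fin_cases a <;> fin_cases b <;> simp [mW, mH, Matrix.mul_apply, Fin.sum_univ_two] <;> norm_num

theorem conj_chM (θ : ℝ) : mH * chM θ * mW = dgM θ := by
  ext a b
  fin_cases a <;> fin_cases b <;>
    simp [mW, mH, chM, dgM, Matrix.mul_apply, Fin.sum_univ_two] <;> ring

theorem conj_m1 : mH * m1 * mW = m3 := by
  ext a b
  fin_cases a <;> fin_cases b <;>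
    simp [mW, mH, m1, m3, Matrix.mul_apply, Fin.sum_univ_two] <;> norm_num

theorem conj_one : mH * 1 * mW = 1 := by
  rw [Matrix.mul_one, mH_mW]

theorem conj_mJ : mH * mJ * mW = -mJ := by
  ext a b
  fin_cases a <;> fin_cases b <;>
    simp [mW, mH, mJ, Matrix.mul_apply, Fin.sum_univ_two] <;> norm_num

end mats

variable {X : Type} [Fintype X] [DecidableEq X]

section gen

variable {R : Type*} [CommRing R] [Algebra ℝ R]

/-- **Change of basis.** -/
theorem NZ_conj (μ : Equiv.Perm X → ℝ) (A : X → Matrix (Fin 2) (Fin 2) R)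
    {U W : Matrix (Fin 2) (Fin 2) R} (h : W * U = 1) :
    NZ μ (fun x => U * A x * W) = NZ μ A := Br.NZ_conj μ A h

theorem prod_mul_at (A : X → Matrix (Fin 2) (Fin 2) R) (u : X) (ρ M : Matrix (Fin 2) (Fin 2) R)
    (hM : ∀ a b, A u a b * ρ a b = M a b) (s : X → Fin 2) (π : Equiv.Perm X) :
    (∏ z, A z (s z) (s (π z))) * ρ (s u) (s (π u)) =
      ∏ z, (Function.update A u M) z (s z) (s (π z)) := by
  rw [← Finset.mul_prod_erase _ _ (Finset.mem_univ u),
    ← Finset.mul_prod_erase (a := u) Finset.univ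
      (fun z => (Function.update A u M) z (s z) (s (π z))) (Finset.mem_univ u),
    Function.update_self, ← hM, mul_right_comm]
  congr 1
  refine Finset.prod_congr rfl fun z hz => ?_
  rw [Function.update_of_ne (Finset.ne_of_mem_erase hz)]

theorem NZ_update_smul (μ : Equiv.Perm X → ℝ) (A : X → Matrix (Fin 2) (Fin 2) R) (u : X)
    (c : R) (M : Matrix (Fin 2) (Fin 2) R) :
    NZ μ (Function.update A u (c • M)) = c * NZ μ (Function.update A u M) := by
  unfold NZ
  rw [Finset.mul_sum]
  refine Finset.sum_congr rfl fun π _ => ?_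
  rw [mul_smul_comm, Finset.mul_sum]
  congr 1
  refine Finset.sum_congr rfl fun s _ => ?_
  have h : Function.update A u (c • M) =
      Function.update (Function.update A u M) u (c • M) := by
    rw [Function.update_idem]
  rw [h, ← prod_mul_at (Function.update A u M) u (fun _ _ => c) (c • M) (fun a b => by
    rw [Function.update_self, Matrix.smul_apply, smul_eq_mul, mul_comm])]
  rw [mul_comm]

theorem conj_update (A : X → Matrix (Fin 2) (Fin 2) R) (u : X) (M U W : Matrix (Fin 2) (Fin 2) R) :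
    (fun x => U * Function.update A u M x * W) =
      Function.update (fun x => U * A x * W) u (U * M * W) := by
  funext x
  exact Function.apply_update (fun _ (B : Matrix (Fin 2) (Fin 2) R) => U * B * W) A u M x

end gen

/-! ### Charge picture -/

variable (μ : Equiv.Perm X → ℝ) (θ : X → ℝ)

theorem wt_eq (π : Equiv.Perm X) (s : X → Fin 2) :
    wt θ π s = ∏ z, chM (θ z) (s z) (s (π z)) := by
  unfold wt
  exact Finset.prod_congr rfl fun z _ => (chM_apply _ _ _).symm

theorem ZZ_eq : ZZ μ θ = NZ μ fun z => chM (θ z) := by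
  unfold ZZ NZ
  refine Finset.sum_congr rfl fun π _ => ?_
  rw [smul_eq_mul, Finset.mul_sum]
  exact Finset.sum_congr rfl fun s _ => by rw [wt_eq]

/-- General insertion at one node. -/
theorem ins_one (u : X) (ρ M : Matrix (Fin 2) (Fin 2) ℝ)
    (hM : ∀ a b, chM (θ u) a b * ρ a b = M a b) :
    ∑ π, ∑ s, μ π * wt θ π s * ρ (s u) (s (π u)) =
      NZ μ (Function.update (fun z => chM (θ z)) u M) := by
  unfold NZ
  refine Finset.sum_congr rfl fun π _ => ?_
  rw [smul_eq_mul, Finset.mul_sum]
  refine Finset.sum_congr rfl fun s _ => ?_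
  rw [wt_eq, mul_assoc, prod_mul_at _ u ρ M hM]

/-- Insertion at two nodes. -/
theorem ins_two {u v : X} (huv : u ≠ v) (ρ ρ' M M' : Matrix (Fin 2) (Fin 2) ℝ)
    (hM : ∀ a b, chM (θ u) a b * ρ a b = M a b) (hM' : ∀ a b, chM (θ v) a b * ρ' a b = M' a b) :
    ∑ π, ∑ s, μ π * wt θ π s * (ρ (s u) (s (π u)) * ρ' (s v) (s (π v))) =
      NZ μ (Function.update (Function.update (fun z => chM (θ z)) u M) v M') := by
  unfold NZ
  refine Finset.sum_congr rfl fun π _ => ?_
  rw [smul_eq_mul, Finset.mul_sum]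
  refine Finset.sum_congr rfl fun s _ => ?_
  rw [wt_eq, mul_assoc, ← mul_assoc (∏ z, _), prod_mul_at _ u ρ M hM,
    prod_mul_at _ v ρ' M' fun a b => ?_]
  rw [Function.update_of_ne huv.symm]
  exact hM' a b

theorem mag_num (z : X) :
    (∑ π, ∑ s, if s z = s (π z) then 0 else μ π * wt (Function.update θ z 1) π s) =
      NZ μ (Function.update (fun x => chM (θ x)) z m1) := by
  have h := ins_one μ (Function.update θ z 1) z m1 m1 fun a b => by
    rw [Function.update_self, chM_apply, m1_apply]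
    split_ifs <;> simp
  have e : Function.update (fun x => chM (Function.update θ z 1 x)) z m1 =
      Function.update (fun x => chM (θ x)) z m1 := by
    funext x
    by_cases hx : x = z
    · subst hx
      rw [Function.update_self, Function.update_self]
    · rw [Function.update_of_ne hx, Function.update_of_ne hx, Function.update_of_ne hx]
  rw [← e, ← h]
  refine Finset.sum_congr rfl fun π _ => Finset.sum_congr rfl fun s _ => ?_
  rw [m1_apply]
  split_ifs <;> simp

theorem mag_den (z : X) :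
    (∑ π, ∑ s, if s z = s (π z) then μ π * wt θ π s else 0) =
      NZ μ (Function.update (fun x => chM (θ x)) z 1) := by
  have h := ins_one μ θ z 1 1 fun a b => by
    rw [chM_apply, Matrix.one_apply]
    split_ifs <;> simp
  rw [← h]
  refine Finset.sum_congr rfl fun π _ => Finset.sum_congr rfl fun s _ => ?_
  rw [Matrix.one_apply]
  split_ifs <;> simp

theorem jj_sq_num (z : X) :
    ∑ π, ∑ s, μ π * wt θ π s * jj π s z ^ 2 =
      θ z * NZ μ (Function.update (fun x => chM (θ x)) z m1) := by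
  have h := ins_one μ θ z (fun a b => (((a : ℕ) : ℝ) - ((b : ℕ) : ℝ)) ^ 2) (θ z • m1)
    fun a b => by
      rw [chM_apply, Matrix.smul_apply, m1_apply]
      fin_cases a <;> fin_cases b <;> simp
  rw [NZ_update_smul] at h
  exact h

theorem jj_jj_num {u v : X} (huv : u ≠ v) :
    ∑ π, ∑ s, μ π * wt θ π s * (jj π s u * jj π s v) =
      θ u * θ v * NZ μ (Function.update (Function.update (fun x => chM (θ x)) u mJ) v mJ) := by
  have h := ins_two μ θ huv mJ mJ (θ u • mJ) (θ v • mJ)
    (fun a b => by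
      rw [chM_apply, Matrix.smul_apply, mJ_apply]
      fin_cases a <;> fin_cases b <;> simp)
    (fun a b => by
      rw [chM_apply, Matrix.smul_apply, mJ_apply]
      fin_cases a <;> fin_cases b <;> simp)
  rw [NZ_update_smul, Function.update_comm huv, NZ_update_smul, Function.update_comm huv.symm,
    ← mul_assoc, mul_comm (θ v)] at h
  rw [← h]
  refine Finset.sum_congr rfl fun π _ => Finset.sum_congr rfl fun s _ => ?_
  rw [mJ_apply, mJ_apply]
  rfl

/-! ### `S³`-picture -/

theorem ZZ_eq3 : ZZ μ θ = NZ μ fun z => dgM (θ z) := by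
  rw [ZZ_eq, ← NZ_conj μ _ mW_mH]
  simp only [conj_chM]

theorem NZ_up1 (u : X) (M : Matrix (Fin 2) (Fin 2) ℝ) :
    NZ μ (Function.update (fun x => chM (θ x)) u M) =
      NZ μ (Function.update (fun x => dgM (θ x)) u (mH * M * mW)) := by
  rw [← NZ_conj μ _ mW_mH, conj_update]
  simp only [conj_chM]

theorem NZ_up2 (u v : X) (M M' : Matrix (Fin 2) (Fin 2) ℝ) :
    NZ μ (Function.update (Function.update (fun x => chM (θ x)) u M) v M') =
      NZ μ (Function.update (Function.update (fun x => dgM (θ x)) u (mH * M * mW)) v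
        (mH * M' * mW)) := by
  rw [← NZ_conj μ _ mW_mH, conj_update, conj_update]
  simp only [conj_chM]

/-- The magnetisation. -/
theorem mag_eq3 (z : X) : mag μ θ z =
    NZ μ (Function.update (fun x => dgM (θ x)) z m3) /
      NZ μ (Function.update (fun x => dgM (θ x)) z 1) := by
  unfold mag
  rw [mag_num, mag_den, NZ_up1, NZ_up1, conj_m1, conj_one]

theorem vv_eq3 (z : X) : vv μ θ z =
    θ z * NZ μ (Function.update (fun x => dgM (θ x)) z m3) / NZ μ fun x => dgM (θ x) := by
  unfold vv EE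
  rw [jj_sq_num, NZ_up1, conj_m1, ZZ_eq3]

/-- Conservation of the magnetisation. -/
theorem flip_two {u v : X} (huv : u ≠ v) :
    NZ μ (Function.update (Function.update (fun x => dgM (θ x)) u (-mJ)) v (-mJ)) =
      - NZ μ (Function.update (Function.update (fun x => dgM (θ x)) u m1) v m1) := by
  unfold NZ
  rw [← Finset.sum_neg_distrib]
  refine Finset.sum_congr rfl fun π _ => ?_
  rw [← smul_neg, ← Finset.sum_neg_distrib]
  congr 1
  refine Finset.sum_congr rfl fun s _ => ?_
  by_cases h : ∃ z, z ≠ u ∧ z ≠ v ∧ s z ≠ s (π z)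
  · obtain ⟨z, hu, hv, hz⟩ := h
    rw [Finset.prod_eq_zero (Finset.mem_univ z), Finset.prod_eq_zero (Finset.mem_univ z), neg_zero]
    · rw [Function.update_of_ne hv, Function.update_of_ne hu, dgM_ne _ hz]
    · rw [Function.update_of_ne hv, Function.update_of_ne hu, dgM_ne _ hz]
  · push Not at h
    set D := fun x => dgM (θ x) with hD
    -- the charges
    have hJ : ∀ a b : Fin 2, (m1 : Matrix (Fin 2) (Fin 2) ℝ) a b *
        (((b : ℕ) : ℝ) - ((a : ℕ) : ℝ)) = (-mJ : Matrix (Fin 2) (Fin 2) ℝ) a b := by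
      intro a b
      rw [m1_apply, Matrix.neg_apply, mJ_apply]
      fin_cases a <;> fin_cases b <;> simp
    have e1 := prod_mul_at (Function.update (Function.update D u m1) v m1) u
      (fun a b => ((b : ℕ) : ℝ) - ((a : ℕ) : ℝ)) (-mJ) (fun a b => by
        rw [Function.update_of_ne huv, Function.update_self]
        exact hJ a b) s π
    have e2 := prod_mul_at (Function.update (Function.update (Function.update D u m1) v m1) u (-mJ))
      v (fun a b => ((b : ℕ) : ℝ) - ((a : ℕ) : ℝ)) (-mJ) (fun a b => by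
        rw [Function.update_of_ne huv.symm, Function.update_self]
        exact hJ a b) s π
    have e3 : Function.update (Function.update (Function.update (Function.update D u m1) v m1) u
        (-mJ)) v (-mJ) = Function.update (Function.update D u (-mJ)) v (-mJ) := by
      funext x
      by_cases hxv : x = v
      · subst hxv
        rw [Function.update_self, Function.update_self]
      · rw [Function.update_of_ne hxv, Function.update_of_ne hxv]
        by_cases hxu : x = u
        · subst hxu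
          rw [Function.update_self, Function.update_self]
        · rw [Function.update_of_ne hxu, Function.update_of_ne hxv, Function.update_of_ne hxu,
            Function.update_of_ne hxu]
    rw [e3] at e2
    rw [← e2, ← e1, mul_assoc]
    set P := ∏ z, Function.update (Function.update D u m1) v m1 z (s z) (s (π z)) with hP
    -- the sum of the charges
    have hs : ∑ z, ((((s z : Fin 2) : ℕ) : ℝ) - (((s (π z) : Fin 2) : ℕ) : ℝ)) = 0 := by
      rw [Finset.sum_sub_distrib, sub_eq_zero]
      exact (Equiv.sum_comp π fun z => (((s z : Fin 2) : ℕ) : ℝ)).symm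
    have hs2 : (((s u : Fin 2) : ℕ) : ℝ) - (((s (π u) : Fin 2) : ℕ) : ℝ) +
        ((((s v : Fin 2) : ℕ) : ℝ) - (((s (π v) : Fin 2) : ℕ) : ℝ)) = 0 := by
      rw [← hs, ← Finset.sum_pair huv
        (f := fun z => ((((s z : Fin 2) : ℕ) : ℝ) - (((s (π z) : Fin 2) : ℕ) : ℝ)))]
      refine Finset.sum_subset (Finset.subset_univ _) fun z _ hz => ?_
      rw [Finset.mem_insert, Finset.mem_singleton, not_or] at hz
      rw [h z hz.1 hz.2, sub_self]
    by_cases hu : s u = s (π u)
    · have : P = 0 := by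
        rw [hP]
        refine Finset.prod_eq_zero (Finset.mem_univ u) ?_
        rw [Function.update_of_ne huv, Function.update_self, m1_apply, if_pos hu]
      rw [this, zero_mul, neg_zero]
    · have h1 : ((((s (π u) : Fin 2) : ℕ) : ℝ) - (((s u : Fin 2) : ℕ) : ℝ)) ^ 2 = 1 := by
        generalize s u = a at hu ⊢
        generalize s (π u) = b at hu ⊢
        fin_cases a <;> fin_cases b <;> simp_all
      have h2 : (((s (π v) : Fin 2) : ℕ) : ℝ) - (((s v : Fin 2) : ℕ) : ℝ) =
          - ((((s (π u) : Fin 2) : ℕ) : ℝ) - (((s u : Fin 2) : ℕ) : ℝ)) := by linarith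
      rw [h2, mul_neg, ← sq, h1]
      ring

/-- **The conductances.** -/
theorem cc_eq3 {u v : X} (huv : u ≠ v) : cc μ θ u v =
    θ u * θ v * NZ μ (Function.update (Function.update (fun x => dgM (θ x)) u m1) v m1) /
      NZ μ fun x => dgM (θ x) := by
  unfold cc EE
  rw [jj_jj_num μ θ huv, NZ_up2, conj_mJ, flip_two μ θ huv, ZZ_eq3]
  ring

theorem NZ_nonneg (hμ : ∀ π, 0 ≤ μ π) {A : X → Matrix (Fin 2) (Fin 2) ℝ}
    (hA : ∀ z a b, 0 ≤ A z a b) : 0 ≤ NZ μ A := by
  unfold NZ
  refine Finset.sum_nonneg fun π _ => ?_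
  rw [smul_eq_mul]
  exact mul_nonneg (hμ π) (Finset.sum_nonneg fun s _ => Finset.prod_nonneg fun z _ => hA _ _ _)

theorem dgM_nonneg {t : ℝ} (h0 : 0 ≤ t) (h1 : t ≤ 1) (a b : Fin 2) : 0 ≤ dgM t a b := by
  fin_cases a <;> fin_cases b <;> simp [dgM] <;> linarith

theorem m1_nonneg (a b : Fin 2) : 0 ≤ (m1 : Matrix (Fin 2) (Fin 2) ℝ) a b := by
  rw [m1_apply]
  split_ifs <;> norm_num

theorem cc_nonneg (hμ : ∀ π, 0 ≤ μ π) (h0 : ∀ x, 0 ≤ θ x) (h1 : ∀ x, θ x ≤ 1) {u v : X}
    (huv : u ≠ v) : 0 ≤ cc μ θ u v := by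
  rw [cc_eq3 μ θ huv]
  refine div_nonneg (mul_nonneg (mul_nonneg (h0 u) (h0 v)) (NZ_nonneg μ hμ fun z a b => ?_))
    (NZ_nonneg μ hμ fun z a b => dgM_nonneg (h0 z) (h1 z) a b)
  by_cases hv : z = v
  · subst hv
    rw [Function.update_self]
    exact m1_nonneg a b
  · rw [Function.update_of_ne hv]
    by_cases hu : z = u
    · subst hu
      rw [Function.update_self]
      exact m1_nonneg a b
    · rw [Function.update_of_ne hu]
      exact dgM_nonneg (h0 z) (h1 z) a b

/-! ### The generating polynomial -/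

theorem gen_eq (ζ : X → ℂ) : gen μ θ ζ =
    NZ μ fun z => (!![ζ z, (θ z : ℂ); (θ z : ℂ) * ζ z ^ 2, ζ z] : Matrix (Fin 2) (Fin 2) ℂ) := by
  unfold gen NZ
  refine Finset.sum_congr rfl fun π _ => ?_
  rw [Finset.smul_sum]
  refine Finset.sum_congr rfl fun s _ => ?_
  rw [Complex.real_smul, Complex.ofReal_mul, mul_assoc]
  congr 1
  unfold wt
  rw [Complex.ofReal_prod, ← Finset.prod_mul_distrib]
  refine Finset.prod_congr rfl fun z _ => ?_
  generalize s z = a
  generalize s (π z) = b
  fin_cases a <;> fin_cases b <;> simp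

/-! ### Rotated slices -/

/-- `1 + θ (cos φ σ³ + sin φ σ¹)`. -/
def rotM (θ φ : ℝ) : Matrix (Fin 2) (Fin 2) ℝ :=
  !![1 + θ * Real.cos φ, θ * Real.sin φ; θ * Real.sin φ, 1 - θ * Real.cos φ]

/-- The same in the charge picture. -/
def twM (θ φ : ℝ) : Matrix (Fin 2) (Fin 2) ℂ :=
  !![1, θ * Complex.exp (-(φ * Complex.I)); θ * Complex.exp (φ * Complex.I), 1]

def cU : Matrix (Fin 2) (Fin 2) ℂ := !![1, 1; Complex.I, -Complex.I]

def cW : Matrix (Fin 2) (Fin 2) ℂ := !![1 / 2, -(Complex.I / 2); 1 / 2, Complex.I / 2]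

theorem cW_cU : cW * cU = 1 := by
  have h := Complex.I_mul_I
  ext a b
  fin_cases a <;> fin_cases b <;> simp [cW, cU, Matrix.mul_apply, Fin.sum_univ_two] <;>
    first
      | linear_combination (-(1 / 2)) * h
      | linear_combination (1 / 2) * h

theorem conj_twM (θ φ : ℝ) : cU * twM θ φ * cW = (rotM θ φ).map (algebraMap ℝ ℂ) := by
  have h := Complex.I_mul_I
  have hc : Complex.exp (φ * Complex.I) = Real.cos φ + Real.sin φ * Complex.I := by
    rw [Complex.exp_mul_I, Complex.ofReal_cos, Complex.ofReal_sin]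
  have hc' : Complex.exp (-(φ * Complex.I)) = Real.cos φ - Real.sin φ * Complex.I := by
    rw [← neg_mul, Complex.exp_mul_I, Complex.cos_neg, Complex.sin_neg, Complex.ofReal_cos,
      Complex.ofReal_sin]
    ring
  ext a b
  fin_cases a <;> fin_cases b
  · simp [cW, cU, twM, rotM, Matrix.mul_apply, Fin.sum_univ_two, hc, hc']
    ring
  · simp [cW, cU, twM, rotM, Matrix.mul_apply, Fin.sum_univ_two, hc, hc']
    ring_nf
    rw [Complex.I_sq]
    ring
  · simp [cW, cU, twM, rotM, Matrix.mul_apply, Fin.sum_univ_two, hc, hc']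
    ring_nf
    rw [Complex.I_sq]
    ring
  · simp [cW, cU, twM, rotM, Matrix.mul_apply, Fin.sum_univ_two, hc, hc']
    ring_nf
    rw [Complex.I_sq]
    ring

theorem NZ_map (A : X → Matrix (Fin 2) (Fin 2) ℝ) :
    NZ μ (fun z => (A z).map (algebraMap ℝ ℂ)) = ((NZ μ A : ℝ) : ℂ) := by
  unfold NZ
  rw [Complex.ofReal_sum]
  refine Finset.sum_congr rfl fun π _ => ?_
  rw [Complex.real_smul, smul_eq_mul, Complex.ofReal_mul, Complex.ofReal_sum]
  congr 1
  refine Finset.sum_congr rfl fun s _ => ?_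
  rw [Complex.ofReal_prod]
  rfl

/-- **Rotated slices**: the characteristic function of the charges. -/
theorem twist_num (φ : X → ℝ) :
    ∑ π, ∑ s, μ π * wt θ π s * Real.cos (∑ x, φ x * jj π s x) =
      NZ μ fun z => rotM (θ z) (φ z) := by
  have h1 : ∑ π, ∑ s, ((μ π * wt θ π s : ℝ) : ℂ) *
      Complex.exp (((∑ x, φ x * jj π s x : ℝ) : ℂ) * Complex.I) =
      ((NZ μ fun z => rotM (θ z) (φ z) : ℝ) : ℂ) := by
    rw [← NZ_map]
    simp only [← conj_twM]
    rw [NZ_conj μ _ cW_cU]
    unfold NZ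
    refine Finset.sum_congr rfl fun π _ => ?_
    rw [Finset.smul_sum]
    refine Finset.sum_congr rfl fun s _ => ?_
    rw [Complex.real_smul, Complex.ofReal_mul, mul_assoc]
    congr 1
    unfold wt
    rw [Complex.ofReal_prod, Complex.ofReal_sum, Finset.sum_mul, Complex.exp_sum,
      ← Finset.prod_mul_distrib]
    refine Finset.prod_congr rfl fun z _ => ?_
    unfold jj twM
    generalize s z = a
    generalize s (π z) = b
    fin_cases a <;> fin_cases b <;> simp
  have h2 := congrArg Complex.re h1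
  rw [Complex.ofReal_re, Complex.re_sum] at h2
  rw [← h2]
  refine Finset.sum_congr rfl fun π _ => ?_
  rw [Complex.re_sum]
  refine Finset.sum_congr rfl fun s _ => ?_
  rw [Complex.re_ofReal_mul, Complex.exp_ofReal_mul_I_re]

/-- `E cos (φ · j)`. -/
theorem EE_cos (φ : X → ℝ) :
    EE μ θ (fun π s => Real.cos (∑ x, φ x * jj π s x)) =
      (NZ μ fun z => rotM (θ z) (φ z)) / NZ μ fun z => dgM (θ z) := by
  unfold EE
  rw [twist_num, ZZ_eq3]

end

end Vale.Agent.P361.LRO.Dict
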