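import Vale.Agent.P361.LRO.Dict.Trace
import Vale.Agent.P361.LRO.Dict.Pic
import Vale.Agent.P361.LRO.Dict.LimDefs
import Vale.Agent.P361.LRO.Trot.Lin

/-! P361 LRO, dictionary (D3): the limit `N → ∞` of the circuit, uniformly in the fields. -/

namespace Vale.Agent.P361.LRO.Dict

open Finset Matrix

open scoped Matrix.Norms.Operator

noncomputable section

/-! ### Norms of matrices -/

section norms

variable {Y : Type} [Fintype Y] [DecidableEq Y]

theorem norm_entry_le (A : Matrix Y Y ℝ) (i j : Y) : |A i j| ≤ ‖A‖ := by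
  rw [linfty_opNorm_def, ← Real.norm_eq_abs, ← coe_nnnorm, NNReal.coe_le_coe]
  exact (Finset.single_le_sum (f := fun j => ‖A i j‖₊) (fun _ _ => zero_le)
    (Finset.mem_univ j)).trans (Finset.le_sup (f := fun i => ∑ j, ‖A i j‖₊) (Finset.mem_univ i))

theorem norm_le_of_rows (A : Matrix Y Y ℝ) {c : ℝ} (hc : 0 ≤ c) (h : ∀ i, ∑ j, |A i j| ≤ c) :
    ‖A‖ ≤ c := by
  rw [linfty_opNorm_def]
  have h1 : (Finset.univ.sup fun i => ∑ j, ‖A i j‖₊) ≤ ⟨c, hc⟩ := by
    refine Finset.sup_le fun i _ => NNReal.coe_le_coe.1 ?_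
    push_cast
    simp only [Real.norm_eq_abs]
    exact h i
  exact_mod_cast h1

theorem abs_trace_le (A D : Matrix Y Y ℝ) {d : ℝ} (hD : ∀ i j, i ≠ j → D i j = 0)
    (hd : ∀ i, |D i i| ≤ d) : |trace (A * D)| ≤ Fintype.card Y * (‖A‖ * d) := by
  rw [Matrix.trace]
  refine (Finset.abs_sum_le_sum_abs _ _).trans ?_
  have h1 : ∀ i, |(A * D).diag i| ≤ ‖A‖ * d := by
    intro i
    rw [Matrix.diag_apply, Matrix.mul_apply, Finset.sum_eq_single i]
    · rw [abs_mul]
      exact mul_le_mul (norm_entry_le A i i) (hd i) (abs_nonneg _) (norm_nonneg _)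
    · intro j _ hj
      rw [hD j i hj, mul_zero]
    · intro h
      exact absurd (Finset.mem_univ _) h
  refine (Finset.sum_le_sum fun i _ => h1 i).trans (le_of_eq ?_)
  rw [Finset.sum_const, nsmul_eq_mul, Finset.card_univ]

end norms

variable {V : Type} [Fintype V] [DecidableEq V]

/-- Sign of a spin. -/
def sg (a : Fin 2) : ℝ := if a = 0 then 1 else -1

theorem abs_sg (a : Fin 2) : |sg a| = 1 := by
  unfold sg
  split_ifs <;> simp

theorem norm_one_le : ‖(1 : Matrix (V → Fin 2) (V → Fin 2) ℝ)‖ ≤ 1 := norm_one.le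

theorem norm_szM (x : V) : ‖(szM x : Matrix (V → Fin 2) (V → Fin 2) ℝ)‖ ≤ 1 := by
  unfold szM
  rw [linfty_opNorm_diagonal]
  refine (pi_norm_le_iff_of_nonneg zero_le_one).2 fun σ => ?_
  split_ifs <;> simp

theorem norm_swapM (x y : V) : ‖(swapM x y : Matrix (V → Fin 2) (V → Fin 2) ℝ)‖ ≤ 1 := by
  refine norm_le_of_rows _ zero_le_one fun σ => ?_
  rw [Finset.sum_eq_single (σ ∘ Equiv.swap x y)]
  · simp only [swapM, Matrix.of_apply]
    split_ifs <;> simp
  · intro τ _ hτ
    simp only [swapM, Matrix.of_apply]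
    rw [if_neg, abs_zero]
    rintro rfl
    apply hτ
    funext z
    simp
  · intro h
    exact absurd (Finset.mem_univ _) h

/-! ### The layers as products of factors `1 + A / N` -/

/-- The sites. -/
def sites (β : ℝ) (h : V → ℝ) : List (Matrix (V → Fin 2) (V → Fin 2) ℝ) :=
  (Finset.univ : Finset V).toList.map fun x => (β * h x / 2) • szM x

/-- The edges. -/
def bonds (L : List (V × V)) (β : ℝ) : List (Matrix (V → Fin 2) (V → Fin 2) ℝ) :=
  L.reverse.map fun e => (β / 2) • (swapM e.1 e.2 - 1)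

omit [DecidableEq V] in
theorem layM_dgM (θ : V → ℝ) : layM (fun x => dgM (θ x)) =
    Matrix.diagonal fun σ : V → Fin 2 => ∏ x, (1 + θ x * sg (σ x)) := by
  ext σ τ
  rw [layM, Matrix.of_apply]
  by_cases h : σ = τ
  · subst h
    rw [Matrix.diagonal_apply_eq]
    refine Finset.prod_congr rfl fun x _ => ?_
    unfold dgM sg
    rcases Fin.exists_fin_two.1 ⟨σ x, rfl⟩ with h0 | h0 <;> rw [h0] <;> simp [sub_eq_add_neg]
  · rw [Matrix.diagonal_apply_ne _ h]
    obtain ⟨x, hx⟩ := Function.ne_iff.1 h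
    exact Finset.prod_eq_zero (Finset.mem_univ x) (dgM_ne _ hx)

theorem prod_diag (l : List V) (θ : V → ℝ) :
    (l.map fun x => (1 : Matrix (V → Fin 2) (V → Fin 2) ℝ) + θ x • szM x).prod =
      Matrix.diagonal fun σ => (l.map fun x => 1 + θ x * sg (σ x)).prod := by
  induction l with
  | nil =>
    simp only [List.map_nil, List.prod_nil]
    exact Matrix.diagonal_one.symm
  | cons x l ih =>
    rw [List.map_cons, List.prod_cons, ih]
    have e : (1 : Matrix (V → Fin 2) (V → Fin 2) ℝ) + θ x • szM x =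
        Matrix.diagonal fun σ => 1 + θ x * sg (σ x) := by
      rw [← Matrix.diagonal_one, szM, ← Matrix.diagonal_smul, Matrix.diagonal_add]
      rfl
    rw [e, Matrix.diagonal_mul_diagonal]
    simp only [List.map_cons, List.prod_cons]

theorem layM_eq (β : ℝ) {N : ℕ} (h : V → ℝ) : layM (fun x => dgM (β * h x / (2 * N))) =
    ((sites β h).map fun A => 1 + (N : ℝ)⁻¹ • A).prod := by
  have e : ((sites β h).map fun A => 1 + (N : ℝ)⁻¹ • A) =
      (Finset.univ : Finset V).toList.map fun x =>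
        (1 : Matrix (V → Fin 2) (V → Fin 2) ℝ) + (β * h x / (2 * N)) • szM x := by
    unfold sites
    rw [List.map_map]
    refine List.map_congr_left fun x _ => ?_
    show 1 + (N : ℝ)⁻¹ • ((β * h x / 2) • szM x) = _
    rw [smul_smul]
    congr 2
    rw [div_mul_eq_div_div, div_eq_mul_inv, mul_comm]
    ring
  rw [e, prod_diag, layM_dgM]
  congr 1
  funext σ
  exact (Finset.prod_map_toList _ _).symm

theorem gatM_eq (L : List (V × V)) (β : ℝ) {N : ℕ} : gatM L (β / (2 * N)) =
    ((bonds L β).map fun A => 1 + (N : ℝ)⁻¹ • A).prod := by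
  unfold gatM bonds
  rw [List.map_map]
  congr 1
  refine List.map_congr_left fun e _ => ?_
  show (1 - β / (2 * N)) • (1 : Matrix (V → Fin 2) (V → Fin 2) ℝ) + (β / (2 * N)) • swapM e.1 e.2 =
    1 + (N : ℝ)⁻¹ • ((β / 2) • (swapM e.1 e.2 - 1))
  have e1 : (N : ℝ)⁻¹ * (β / 2) = β / (2 * N) := by
    rw [div_mul_eq_div_div, div_eq_mul_inv (β / 2), mul_comm]
  rw [smul_smul, e1, sub_smul, one_smul, smul_sub]
  abel

/-- The bound of the norms. -/
def cc0 (L : List (V × V)) (β : ℝ) : ℝ := Fintype.card V * (β / 2) + L.length * β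

theorem norm_sites {β : ℝ} (hβ : 0 ≤ β) {h : V → ℝ} (hh : ∀ x, 0 ≤ h x ∧ h x ≤ 1) :
    ((sites β h).map norm).sum ≤ Fintype.card V * (β / 2) := by
  unfold sites
  rw [List.map_map]
  have h1 : ∀ x ∈ (Finset.univ : Finset V).toList,
      (norm ∘ fun x => (β * h x / 2) • szM x) x ≤ β / 2 := by
    intro x _
    show ‖(β * h x / 2) • (szM x : Matrix (V → Fin 2) (V → Fin 2) ℝ)‖ ≤ β / 2
    rw [norm_smul]
    have h2 : ‖β * h x / 2‖ ≤ β / 2 := by
      rw [Real.norm_of_nonneg (by have := (hh x).1; positivity)]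
      have := mul_le_mul_of_nonneg_left (hh x).2 hβ
      linarith
    calc ‖β * h x / 2‖ * ‖(szM x : Matrix (V → Fin 2) (V → Fin 2) ℝ)‖ ≤ (β / 2) * 1 :=
          mul_le_mul h2 (norm_szM x) (norm_nonneg _) (by positivity)
      _ = β / 2 := mul_one _
  refine (List.sum_le_card_nsmul _ (β / 2) ?_).trans (le_of_eq ?_)
  · intro y hy
    obtain ⟨x, hx, rfl⟩ := List.mem_map.1 hy
    exact h1 x hx
  · rw [List.length_map, Finset.length_toList, Finset.card_univ, nsmul_eq_mul]

theorem norm_bonds (L : List (V × V)) {β : ℝ} (hβ : 0 ≤ β) :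
    ((bonds L β).map norm).sum ≤ L.length * β := by
  unfold bonds
  rw [List.map_map]
  have h1 : ∀ e ∈ L.reverse,
      (norm ∘ fun e : V × V => (β / 2) • (swapM e.1 e.2 - 1)) e ≤ β := by
    intro e _
    show ‖(β / 2) • ((swapM e.1 e.2 : Matrix (V → Fin 2) (V → Fin 2) ℝ) - 1)‖ ≤ β
    rw [norm_smul, Real.norm_of_nonneg (by positivity)]
    have h2 : ‖(swapM e.1 e.2 : Matrix (V → Fin 2) (V → Fin 2) ℝ) - 1‖ ≤ 2 := by
      refine (norm_sub_le _ _).trans ?_
      have := norm_swapM e.1 e.2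
      have := norm_one_le (V := V)
      linarith
    nlinarith
  refine (List.sum_le_card_nsmul _ β ?_).trans (le_of_eq ?_)
  · intro y hy
    obtain ⟨x, hx, rfl⟩ := List.mem_map.1 hy
    exact h1 x hx
  · rw [List.length_map, List.length_reverse, nsmul_eq_mul]

/-- The generator. -/
def gen0 (L : List (V × V)) (β : ℝ) (h : V → ℝ) : List (Matrix (V → Fin 2) (V → Fin 2) ℝ) :=
  sites β h ++ bonds L β

theorem norm_gen0 (L : List (V × V)) {β : ℝ} (hβ : 0 ≤ β) {h : V → ℝ}
    (hh : ∀ x, 0 ≤ h x ∧ h x ≤ 1) : ((gen0 L β h).map norm).sum ≤ cc0 L β := by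
  unfold gen0 cc0
  rw [List.map_append, List.sum_append]
  exact add_le_add (norm_sites hβ hh) (norm_bonds L hβ)

theorem gen0_sum (L : List (V × V)) (β : ℝ) (h : V → ℝ) : (gen0 L β h).sum = -β • ham L h := by
  have e1 : (sites β h).sum = β • ∑ x, (h x / 2) • szM x := by
    unfold sites
    rw [Finset.sum_map_toList, Finset.smul_sum]
    refine Finset.sum_congr rfl fun x _ => ?_
    rw [smul_smul, mul_div_assoc]
  have e2 : (bonds L β).sum = -β • (L.map fun e => hM e.1 e.2).sum := by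
    unfold bonds
    rw [List.map_reverse, List.sum_reverse, List.smul_sum, List.map_map]
    congr 1
    refine List.map_congr_left fun e _ => ?_
    show (β / 2) • ((swapM e.1 e.2 : Matrix (V → Fin 2) (V → Fin 2) ℝ) - 1) = -β • hM e.1 e.2
    unfold hM
    rw [smul_smul, ← neg_sub, smul_neg, ← neg_smul]
    congr 1
    ring
  unfold gen0 ham
  rw [List.sum_append, e1, e2, smul_sub]
  simp only [neg_smul]
  abel

/-- One layer with its gates. -/
theorem layer_eq (L : List (V × V)) (β : ℝ) {N : ℕ} (h : V → ℝ) :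
    layM (fun x => dgM (β * h x / (2 * N))) * gatM L (β / (2 * N)) =
      ((gen0 L β h).map fun A => 1 + (N : ℝ)⁻¹ • A).prod := by
  unfold gen0
  rw [List.map_append, List.prod_append, layM_eq, gatM_eq]

/-! ### Positivity -/

/-- Nonnegative entries, and the entry of the configuration with all spins up is at least one. -/
def PU (A : Matrix (V → Fin 2) (V → Fin 2) ℝ) : Prop :=
  (∀ i j, 0 ≤ A i j) ∧ 1 ≤ A (fun _ => 0) (fun _ => 0)

theorem PU.mul {A B : Matrix (V → Fin 2) (V → Fin 2) ℝ} (hA : PU A) (hB : PU B) : PU (A * B) := by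
  refine ⟨fun i j => ?_, ?_⟩
  · rw [Matrix.mul_apply]
    exact Finset.sum_nonneg fun k _ => mul_nonneg (hA.1 _ _) (hB.1 _ _)
  · rw [Matrix.mul_apply]
    have h1 : A (fun _ => 0) (fun _ => 0) * B (fun _ => 0) (fun _ => 0) ≤
        ∑ k, A (fun _ => 0) k * B k (fun _ => 0) :=
      Finset.single_le_sum (f := fun k => A (fun _ => 0) k * B k (fun _ => 0))
        (fun k _ => mul_nonneg (hA.1 _ _) (hB.1 _ _)) (Finset.mem_univ _)
    have h2 := one_le_mul_of_one_le_of_one_le hA.2 hB.2
    linarith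

omit [DecidableEq V] in
theorem PU.one : PU (1 : Matrix (V → Fin 2) (V → Fin 2) ℝ) := by
  refine ⟨fun i j => ?_, ?_⟩
  · rw [Matrix.one_apply]
    split_ifs <;> norm_num
  · rw [Matrix.one_apply_eq]

theorem PU.pow {A : Matrix (V → Fin 2) (V → Fin 2) ℝ} (hA : PU A) (k : ℕ) : PU (A ^ k) := by
  induction k with
  | zero => rw [pow_zero]; exact PU.one
  | succ k ih => rw [pow_succ]; exact ih.mul hA

theorem PU.list {l : List (Matrix (V → Fin 2) (V → Fin 2) ℝ)} (hl : ∀ A ∈ l, PU A) :
    PU l.prod := by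
  induction l with
  | nil => exact PU.one
  | cons A l ih =>
    rw [List.prod_cons]
    exact (hl A List.mem_cons_self).mul (ih fun B hB => hl B (List.mem_cons_of_mem _ hB))

theorem PU.trace {A : Matrix (V → Fin 2) (V → Fin 2) ℝ} (hA : PU A) : 1 ≤ trace A := by
  rw [Matrix.trace]
  have h1 : A.diag (fun _ => 0) ≤ ∑ i, A.diag i :=
    Finset.single_le_sum (f := fun i => A.diag i) (fun i _ => hA.1 _ _) (Finset.mem_univ _)
  exact hA.2.trans h1

theorem PU.gatM (L : List (V × V)) {p : ℝ} (hp : 0 ≤ p) (hp1 : p ≤ 1) :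
    PU (gatM L p : Matrix (V → Fin 2) (V → Fin 2) ℝ) := by
  refine PU.list fun A hA => ?_
  obtain ⟨e, _, rfl⟩ := List.mem_map.1 hA
  refine ⟨fun i j => ?_, ?_⟩
  · simp only [gatR, swapR, Matrix.add_apply, Matrix.smul_apply, Matrix.one_apply, Matrix.of_apply,
      smul_eq_mul]
    split_ifs <;> linarith
  · simp only [gatR, swapR, Matrix.add_apply, Matrix.smul_apply, Matrix.one_apply, Matrix.of_apply,
      smul_eq_mul]
    have e1 : (fun _ : V => (0 : Fin 2)) = (fun _ => 0) ∘ Equiv.swap e.1 e.2 := rfl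
    rw [if_pos trivial, if_pos e1]
    linarith

omit [DecidableEq V] in
theorem PU.layM {θ : V → ℝ} (hθ : ∀ x, 0 ≤ θ x ∧ θ x ≤ 1) :
    PU (layM (fun x => dgM (θ x)) : Matrix (V → Fin 2) (V → Fin 2) ℝ) := by
  rw [layM_dgM]
  refine ⟨fun i j => ?_, ?_⟩
  · rw [Matrix.diagonal_apply]
    split_ifs
    · refine Finset.prod_nonneg fun x _ => ?_
      have h1 := abs_sg (i x)
      have h2 := neg_abs_le (sg (i x))
      have h3 := hθ x
      rw [h1] at h2
      nlinarith
    · exact le_rfl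
  · rw [Matrix.diagonal_apply_eq]
    have h1 : ∀ x : V, (1 : ℝ) ≤ 1 + θ x * sg 0 := fun x => by
      unfold sg
      rw [if_pos rfl]
      linarith [(hθ x).1]
    have h2 := Finset.prod_le_prod (s := (Finset.univ : Finset V)) (f := fun _ => (1 : ℝ))
      (g := fun x : V => 1 + θ x * sg 0) (fun _ _ => zero_le_one) (fun x _ => h1 x)
    rwa [Finset.prod_const_one] at h2

/-! ### The layers with an inserted matrix -/

omit [DecidableEq V] in
theorem layT_eq (T : V → ℝ) : layT T = layM fun x => dgM (T x) := by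
  rw [layM_dgM]
  rfl

theorem dgM_zero : (dgM (0 : ℝ) : Matrix (Fin 2) (Fin 2) ℝ) = 1 := by
  unfold dgM
  rw [add_zero, sub_zero, Matrix.one_fin_two]

theorem layM_up1 (θ : V → ℝ) (x : V) : layM (Function.update (fun y => dgM (θ y)) x 1) =
    layM fun y => dgM (Function.update θ x 0 y) := by
  congr 1
  funext y
  by_cases h : y = x
  · subst h
    rw [Function.update_self, Function.update_self, dgM_zero]
  · rw [Function.update_of_ne h, Function.update_of_ne h]

theorem layM_up3 (θ : V → ℝ) (x : V) : layM (Function.update (fun y => dgM (θ y)) x m3) =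
    (layM fun y => dgM (Function.update θ x 0 y)) * szM x := by
  rw [layM_dgM, szM, Matrix.diagonal_mul_diagonal]
  ext σ τ
  rw [layM, Matrix.of_apply]
  by_cases h : σ = τ
  · subst h
    rw [Matrix.diagonal_apply_eq, ← Finset.mul_prod_erase Finset.univ _ (Finset.mem_univ x),
      ← Finset.mul_prod_erase Finset.univ (fun y => 1 + Function.update θ x 0 y * sg (σ y))
        (Finset.mem_univ x), Function.update_self, Function.update_self, zero_mul, add_zero, one_mul,
      mul_comm]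
    congr 1
    · refine Finset.prod_congr rfl fun y hy => ?_
      rw [Function.update_of_ne (Finset.ne_of_mem_erase hy),
        Function.update_of_ne (Finset.ne_of_mem_erase hy)]
      unfold dgM sg
      rcases Fin.exists_fin_two.1 ⟨σ y, rfl⟩ with h0 | h0 <;> rw [h0] <;> simp [sub_eq_add_neg]
    · unfold m3
      rcases Fin.exists_fin_two.1 ⟨σ x, rfl⟩ with h0 | h0 <;> rw [h0] <;> simp
  · rw [Matrix.diagonal_apply_ne _ h]
    obtain ⟨y, hy⟩ := Function.ne_iff.1 h
    refine Finset.prod_eq_zero (Finset.mem_univ y) ?_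
    by_cases hyx : y = x
    · subst hyx
      rw [Function.update_self]
      unfold m3
      revert hy
      generalize σ y = a
      generalize τ y = b
      intro hab
      fin_cases a <;> fin_cases b <;> simp_all
    · rw [Function.update_of_ne hyx]
      exact dgM_ne _ hy

/-- The word with one layer changed. -/
theorem word_eq (L : List (V × V)) (β : ℝ) {N : ℕ} (h T : V → ℝ) {k : Fin (N + 1)} (hk : k ≠ 0)
    (x : V) (O : Matrix (Fin 2) (Fin 2) ℝ) :
    NZ (phys L β N) (Function.update (fun z => dgM (th β N h T z)) (k, x) O) =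
      trace ((((gen0 L β h).map fun A => 1 + (N : ℝ)⁻¹ • A).prod ^ (N - (k : ℕ)) *
        (layM (Function.update (fun y => dgM (β * h y / (2 * N))) x O) * gatM L (β / (2 * N))) *
        ((gen0 L β h).map fun A => 1 + (N : ℝ)⁻¹ • A).prod ^ ((k : ℕ) - 1)) * layT T) := by
  have hk1 : 1 ≤ (k : ℕ) := Nat.one_le_iff_ne_zero.2 fun h0 => hk (Fin.ext h0)
  have hkN : (k : ℕ) ≤ N := Nat.lt_succ_iff.1 k.2
  rw [NZ_phys]
  set f : ℕ → Matrix (V → Fin 2) (V → Fin 2) ℝ := fun j => layM (fun y =>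
    Function.update (fun z => dgM (th β N h T z)) (k, x) O (Fin.ofNat (N + 1) j, y)) *
      gatM L (β / (2 * N)) with hf
  have hval : ∀ j, j ≤ N → ((Fin.ofNat (N + 1) j : Fin (N + 1)) : ℕ) = j := fun j hj => by
    rw [Fin.val_ofNat, Nat.mod_eq_of_lt (by omega)]
  have f1 : ∀ j, 1 ≤ j → j ≤ N → j ≠ (k : ℕ) →
      f j = ((gen0 L β h).map fun A => 1 + (N : ℝ)⁻¹ • A).prod := by
    intro j h1 h2 h3
    rw [← layer_eq, hf]
    simp only
    congr 2
    funext y
    have hne : (Fin.ofNat (N + 1) j, y) ≠ (k, x) := fun he => h3 (by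
      rw [← hval j h2, (Prod.mk.inj he).1])
    rw [Function.update_of_ne hne]
    unfold th
    have h0 : (Fin.ofNat (N + 1) j : Fin (N + 1)) ≠ 0 := fun he => by
      have := congrArg Fin.val he
      rw [hval j h2] at this
      simp at this
      omega
    simp only
    rw [if_neg h0]
  have fk : f k = layM (Function.update (fun y => dgM (β * h y / (2 * N))) x O) *
      gatM L (β / (2 * N)) := by
    rw [hf]
    simp only
    congr 2
    funext y
    have hkk : (Fin.ofNat (N + 1) (k : ℕ) : Fin (N + 1)) = k := Fin.ext (hval k hkN)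
    rw [hkk]
    by_cases hy : y = x
    · subst hy
      rw [Function.update_self, Function.update_self]
    · rw [Function.update_of_ne hy, Function.update_of_ne fun he => hy (Prod.mk.inj he).2]
      unfold th
      simp only
      rw [if_neg hk]
  have hs1 : down f N = down (fun j => f ((k : ℕ) + j)) (N - k) * down f k := by
    conv_lhs => rw [show N = (N - (k : ℕ)) + k by omega]
    rw [down_split]
  have hs2 : down f (k : ℕ) = f k * down f ((k : ℕ) - 1) := by
    conv_lhs => rw [show (k : ℕ) = ((k : ℕ) - 1) + 1 by omega]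
    show f ((k : ℕ) - 1 + 1) * _ = _
    rw [show (k : ℕ) - 1 + 1 = k by omega]
  rw [hs1, hs2, down_congr (g := fun _ => ((gen0 L β h).map fun A => 1 + (N : ℝ)⁻¹ • A).prod)
      (fun j h1 h2 => f1 _ (by omega) (by omega) (by omega)), down_const,
    down_congr (f := f) (g := fun _ => ((gen0 L β h).map fun A => 1 + (N : ℝ)⁻¹ • A).prod)
      (fun j h1 h2 => f1 _ (by omega) (by omega) (by omega)), down_const, fk, ← mul_assoc]
  congr 2
  rw [layT_eq]
  congr 1
  funext y
  rw [Function.update_of_ne fun he => hk (Prod.mk.inj he).1.symm]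
  rfl

/-! ### The limit -/

section small

variable {𝔸 : Type*} [NormedRing 𝔸] [NormedAlgebra ℝ 𝔸]

theorem lin_small (h1 : ‖(1 : 𝔸)‖ ≤ 1) (l : List 𝔸) {c : ℝ} (hc : (l.map norm).sum ≤ c) {N : ℕ}
    (hN : 1 ≤ N) : ‖(l.map fun A => 1 + (N : ℝ)⁻¹ • A).prod - 1‖ ≤ c * Real.exp c / N ∧
      ‖(l.map fun A => 1 + (N : ℝ)⁻¹ • A).prod‖ ≤ Real.exp c := by
  have hN0 : (0 : ℝ) < N := by exact_mod_cast hN
  have h0 : 0 ≤ (l.map norm).sum := List.sum_nonneg (by
      intro x hx
      obtain ⟨a, _, rfl⟩ := List.mem_map.1 hx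
      exact norm_nonneg _)
  have hc0 : 0 ≤ c := h0.trans hc
  set l' := l.map fun A => (N : ℝ)⁻¹ • A with hl'
  have hnorm : (l'.map norm).sum ≤ c / N := by
    have e : (l'.map norm) = (l.map norm).map (fun x => (N : ℝ)⁻¹ * x) := by
      rw [hl', List.map_map, List.map_map]
      apply List.map_congr_left
      intro A _
      simp [norm_smul]
    rw [e, List.sum_map_mul_left, List.map_id', div_eq_inv_mul]
    gcongr
  have hmap : (l.map fun A => 1 + (N : ℝ)⁻¹ • A) = l'.map fun A => 1 + A := by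
    rw [hl', List.map_map]; rfl
  rw [hmap]
  obtain ⟨i1, i2, -⟩ := Trot.prod_lin_bounds h1 l'
  have hd : c / N ≤ c := div_le_self hc0 (by exact_mod_cast hN)
  have hd0 : 0 ≤ c / N := by positivity
  have e1 : Real.exp (l'.map norm).sum ≤ Real.exp (c / N) := Real.exp_le_exp.2 hnorm
  have e2 : Real.exp (c / N) ≤ Real.exp c := Real.exp_le_exp.2 hd
  refine ⟨i2.trans ?_, i1.trans (e1.trans e2)⟩
  have h7 := Real.add_one_le_exp (-(c / N))
  have h8 : (1 - c / N) * Real.exp (c / N) ≤ Real.exp (-(c / N)) * Real.exp (c / N) :=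
    mul_le_mul_of_nonneg_right (by linarith) (Real.exp_pos _).le
  rw [← Real.exp_add, neg_add_cancel, Real.exp_zero] at h8
  have h9 : c / N * Real.exp (c / N) ≤ c / N * Real.exp c := mul_le_mul_of_nonneg_left e2 hd0
  have h10 : c * Real.exp c / N = c / N * Real.exp c := by ring
  rw [h10]
  linarith

end small

/-- An inserted matrix. -/
theorem ins_bound (L : List (V × V)) {β : ℝ} (hβ : 0 ≤ β) {N : ℕ} (hN : 1 ≤ N) {h : V → ℝ}
    (hh : ∀ x, 0 ≤ h x ∧ h x ≤ 1) (x : V) {O : Matrix (V → Fin 2) (V → Fin 2) ℝ} (hO : ‖O‖ ≤ 1) :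
    ‖(layM fun y => dgM (Function.update (fun y => β * h y / (2 * N)) x 0 y)) * O *
      gatM L (β / (2 * N)) - O‖ ≤ 2 * cc0 L β * Real.exp (2 * cc0 L β) / N := by
  have hc : 0 ≤ cc0 L β := by unfold cc0; positivity
  have e1 : (layM fun y => dgM (Function.update (fun y => β * h y / (2 * N)) x 0 y) :
      Matrix (V → Fin 2) (V → Fin 2) ℝ) =
      ((sites β (Function.update h x 0)).map fun A => 1 + (N : ℝ)⁻¹ • A).prod := by
    rw [← layM_eq]
    congr 1
    funext y
    by_cases hy : y = x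
    · subst hy
      rw [Function.update_self, Function.update_self, mul_zero, zero_div]
    · rw [Function.update_of_ne hy, Function.update_of_ne hy]
  have hh' : ∀ y, 0 ≤ Function.update h x 0 y ∧ Function.update h x 0 y ≤ 1 := by
    intro y
    by_cases hy : y = x
    · subst hy
      rw [Function.update_self]
      exact ⟨le_rfl, zero_le_one⟩
    · rw [Function.update_of_ne hy]
      exact hh y
  have b1 : ((sites β (Function.update h x 0)).map norm).sum ≤ cc0 L β :=
    (norm_sites hβ hh').trans (by unfold cc0; nlinarith [Nat.cast_nonneg (α := ℝ) L.length])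
  have b2 : ((bonds L β).map norm).sum ≤ cc0 L β :=
    (norm_bonds L hβ).trans (by unfold cc0; nlinarith [Nat.cast_nonneg (α := ℝ) (Fintype.card V)])
  obtain ⟨p1, p2⟩ := lin_small norm_one_le _ b1 hN
  obtain ⟨q1, q2⟩ := lin_small norm_one_le _ b2 hN
  rw [e1, gatM_eq]
  set D := ((sites β (Function.update h x 0)).map fun A => 1 + (N : ℝ)⁻¹ • A).prod
  set G := ((bonds L β).map fun A => 1 + (N : ℝ)⁻¹ • A).prod
  set c := cc0 L β
  have e : D * O * G - O = (D - 1) * O * G + O * (G - 1) := by noncomm_ring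
  rw [e]
  have hN0 : (0 : ℝ) < N := by exact_mod_cast hN
  have t1 : ‖(D - 1) * O * G‖ ≤ c * Real.exp c / N * 1 * Real.exp c :=
    (norm_mul_le _ _).trans (mul_le_mul ((norm_mul_le _ _).trans
      (mul_le_mul p1 hO (norm_nonneg _) (by positivity))) q2 (norm_nonneg _) (by positivity))
  have t2 : ‖O * (G - 1)‖ ≤ 1 * (c * Real.exp c / N) :=
    (norm_mul_le _ _).trans (mul_le_mul hO q1 (norm_nonneg _) zero_le_one)
  refine (norm_add_le _ _).trans ((add_le_add t1 t2).trans ?_)
  have e3 : Real.exp (2 * c) = Real.exp c * Real.exp c := by rw [two_mul, Real.exp_add]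
  have e4 : 1 ≤ Real.exp c := Real.one_le_exp hc
  rw [e3]
  have h5 : c * Real.exp c / N * 1 * Real.exp c + 1 * (c * Real.exp c / N) =
      (c * Real.exp c * (Real.exp c + 1)) / N := by ring
  rw [h5]
  refine div_le_div_of_nonneg_right ?_ hN0.le
  have h6 : 0 ≤ c * Real.exp c := by positivity
  nlinarith

theorem abs_layT_le {T : V → ℝ} (hT : ∀ x, 0 ≤ T x ∧ T x ≤ 1) (σ : V → Fin 2) :
    |layT T σ σ| ≤ 2 ^ Fintype.card V := by
  rw [layT, Matrix.diagonal_apply_eq, Finset.abs_prod]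
  refine (Finset.prod_le_prod (fun _ _ => abs_nonneg _)
    (g := fun _ => (2 : ℝ)) fun x _ => ?_).trans (le_of_eq ?_)
  · have h1 := hT x
    rw [abs_le]
    split_ifs <;> constructor <;> linarith
  · rw [Finset.prod_const, Finset.card_univ]

theorem layT_ne {T : V → ℝ} (σ τ : V → Fin 2) (h : σ ≠ τ) : layT T σ τ = 0 :=
  Matrix.diagonal_apply_ne _ h

/-- The constant of the traces. -/
def kT (V : Type) [Fintype V] [DecidableEq V] : ℝ :=
  Fintype.card (V → Fin 2) * 2 ^ Fintype.card V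

theorem trace_layT_le {T : V → ℝ} (hT : ∀ x, 0 ≤ T x ∧ T x ≤ 1)
    (A : Matrix (V → Fin 2) (V → Fin 2) ℝ) : |trace (A * layT T)| ≤ kT V * ‖A‖ := by
  refine (abs_trace_le A (layT T) layT_ne (abs_layT_le hT)).trans (le_of_eq ?_)
  unfold kT
  ring

/-- (D3) -/
theorem magLim (L : List (V × V)) {β : ℝ} (hβ : 0 < β) : MagLim L β := by
  set c := cc0 L β with hcdef
  have hc : 0 ≤ c := by rw [hcdef]; unfold cc0; positivity
  set C := 2 * c * Real.exp (2 * c) with hC
  have hC0 : 0 ≤ C := by positivity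
  have hk0 : 0 ≤ kT V := by unfold kT; positivity
  have hI0 : 0 ≤ Trot.cI c C := by unfold Trot.cI; positivity
  set a := kT V * Trot.cI c C with ha
  have ha0 : 0 ≤ a := mul_nonneg hk0 hI0
  set b := kT V * Real.exp (2 * c) with hb
  have hb0 : 0 ≤ b := by positivity
  refine ⟨a + 2 * a * b, max 1 (max ⌈β⌉₊ ⌈2 * a⌉₊), fun N hN h T hh hT z hz => ?_⟩
  obtain ⟨k, x⟩ := z
  simp only at hz ⊢
  have hN1 : 1 ≤ N := (le_max_left _ _).trans hN
  have hNβ : β ≤ N := Nat.ceil_le.1 (((le_max_left _ _).trans (le_max_right _ _)).trans hN)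
  have hNa : 2 * a ≤ N := Nat.ceil_le.1 (((le_max_right _ _).trans (le_max_right _ _)).trans hN)
  have hN0 : (0 : ℝ) < N := by exact_mod_cast hN1
  have hk1 : 1 ≤ (k : ℕ) := Nat.one_le_iff_ne_zero.2 fun h0 => hz (Fin.ext h0)
  have hkN : (k : ℕ) ≤ N := Nat.lt_succ_iff.1 k.2
  set l := gen0 L β h with hl
  have hlc : (l.map norm).sum ≤ c := norm_gen0 L hβ.le hh
  have hS : ‖l.sum‖ ≤ c := (Trot.norm_list_sum_le l).trans hlc
  have hd : ((k : ℕ) : ℝ) / N ≤ 1 := (div_le_one hN0).2 (by exact_mod_cast hkN)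
  have hd0 : 0 ≤ ((k : ℕ) : ℝ) / N := by positivity
  set P := (l.map fun A => 1 + (N : ℝ)⁻¹ • A).prod with hP
  set E1 := NormedSpace.exp ((1 - ((k : ℕ) : ℝ) / N) • l.sum) with hE1
  set E2 := NormedSpace.exp ((((k : ℕ) : ℝ) / N) • l.sum) with hE2
  have n1 : ‖E1‖ ≤ Real.exp c :=
    Trot.norm_exp_smul_le norm_one_le hS (by linarith) (by linarith)
  have n2 : ‖E2‖ ≤ Real.exp c := Trot.norm_exp_smul_le norm_one_le hS hd0 hd
  set D := (layM fun y => dgM (Function.update (fun y => β * h y / (2 * N)) x 0 y) :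
    Matrix (V → Fin 2) (V → Fin 2) ℝ) with hD
  set G := (gatM L (β / (2 * N)) : Matrix (V → Fin 2) (V → Fin 2) ℝ) with hG
  -- the numerator and the denominator
  have w3 : NZ (phys L β N) (Function.update (fun z => dgM (th β N h T z)) (k, x) m3) =
      trace (P ^ (N - (k : ℕ)) * (D * szM x * G) * P ^ ((k : ℕ) - 1) * layT T) := by
    rw [word_eq L β h T hz x m3, layM_up3]
  have w1 : NZ (phys L β N) (Function.update (fun z => dgM (th β N h T z)) (k, x) 1) =
      trace (P ^ (N - (k : ℕ)) * (D * 1 * G) * P ^ ((k : ℕ) - 1) * layT T) := by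
    rw [word_eq L β h T hz x 1, layM_up1, mul_one]
  have key : ∀ O : Matrix (V → Fin 2) (V → Fin 2) ℝ, ‖O‖ ≤ 1 →
      |trace (P ^ (N - (k : ℕ)) * (D * O * G) * P ^ ((k : ℕ) - 1) * layT T) -
        trace (E1 * O * E2 * layT T)| ≤ a / N := by
    intro O hO
    have h1 := Trot.insert_lin norm_one_le l hlc hC0 hk1 hkN hO (ins_bound L hβ.le hN1 hh x hO)
    rw [← Matrix.trace_sub, ← sub_mul]
    refine (trace_layT_le hT _).trans ?_
    rw [ha, mul_div_assoc]
    exact mul_le_mul_of_nonneg_left h1 hk0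
  have k3 := key (szM x) (norm_szM x)
  have k1 := key 1 norm_one_le
  have hden : 1 ≤ trace (P ^ (N - (k : ℕ)) * (D * 1 * G) * P ^ ((k : ℕ) - 1) * layT T) := by
    have hp : 0 ≤ β / (2 * N) ∧ β / (2 * N) ≤ 1 := by
      refine ⟨by positivity, (div_le_one (by positivity)).2 ?_⟩
      linarith
    have hθ : ∀ y, 0 ≤ β * h y / (2 * N) ∧ β * h y / (2 * N) ≤ 1 := by
      intro y
      have h2 := hh y
      refine ⟨by have := h2.1; positivity, (div_le_one (by positivity)).2 ?_⟩
      have := mul_le_mul_of_nonneg_left h2.2 hβ.le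
      linarith
    have pG : PU G := PU.gatM L hp.1 hp.2
    have pP : PU P := by
      rw [hP, hl, ← layer_eq]
      exact (PU.layM hθ).mul pG
    have pD : PU D := by
      refine PU.layM fun y => ?_
      by_cases hy : y = x
      · subst hy
        rw [Function.update_self]
        exact ⟨le_rfl, zero_le_one⟩
      · rw [Function.update_of_ne hy]
        exact hθ y
    have pT : PU (layT T) := by
      rw [layT_eq]
      exact PU.layM hT
    rw [mul_one]
    exact PU.trace ((((pP.pow _).mul (pD.mul pG)).mul (pP.pow _)).mul pT)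
  have hnum : |trace (E1 * szM x * E2 * layT T)| ≤ b := by
    refine (trace_layT_le hT _).trans ?_
    rw [hb, two_mul, Real.exp_add]
    refine mul_le_mul_of_nonneg_left ?_ hk0
    have h3 : ‖E1 * szM x‖ ≤ Real.exp c * 1 :=
      (norm_mul_le _ _).trans (mul_le_mul n1 (norm_szM x) (norm_nonneg _) (Real.exp_pos _).le)
    rw [mul_one] at h3
    exact (norm_mul_le _ _).trans (mul_le_mul h3 n2 (norm_nonneg _) (Real.exp_pos _).le)
  have eT : mT L h T (β * (1 - ((k : ℕ) : ℝ) / N)) (β * (((k : ℕ) : ℝ) / N)) x =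
      trace (E1 * szM x * E2 * layT T) / trace (E1 * 1 * E2 * layT T) := by
    have e1 : E1 = NormedSpace.exp (-(β * (1 - ((k : ℕ) : ℝ) / N)) • ham L h) := by
      rw [hE1, hl, gen0_sum, smul_smul]
      congr 2
      ring
    have e2 : E2 = NormedSpace.exp (-(β * (((k : ℕ) : ℝ) / N)) • ham L h) := by
      rw [hE2, hl, gen0_sum, smul_smul]
      congr 2
      ring
    unfold mT
    rw [Matrix.trace_mul_comm (E1 * szM x * E2), Matrix.trace_mul_comm (E1 * 1 * E2), e1, e2,
      mul_one]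
    simp only [mul_assoc]
  rw [mag_eq3, w3, w1, eT]
  set u := trace (P ^ (N - (k : ℕ)) * (D * szM x * G) * P ^ ((k : ℕ) - 1) * layT T)
  set v := trace (P ^ (N - (k : ℕ)) * (D * 1 * G) * P ^ ((k : ℕ) - 1) * layT T)
  set u' := trace (E1 * szM x * E2 * layT T)
  set v' := trace (E1 * 1 * E2 * layT T)
  have haN : a / N ≤ 1 / 2 := by
    rw [div_le_iff₀ hN0]
    linarith
  have hv' : 1 / 2 ≤ v' := by
    have := (abs_le.1 k1).2
    linarith
  have hv0 : 0 < v := by linarith
  have hv0' : 0 < v' := by linarith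
  have e : u / v - u' / v' = (u - u') / v + u' * ((v' - v) / (v * v')) := by
    field_simp
    ring
  rw [e]
  have haN0 : 0 ≤ a / N := by positivity
  have s1 : |(u - u') / v| ≤ a / N := by
    rw [abs_div, abs_of_pos hv0]
    exact (div_le_self (abs_nonneg _) hden).trans k3
  have s2 : |u' * ((v' - v) / (v * v'))| ≤ b * (2 * (a / N)) := by
    rw [abs_mul]
    refine mul_le_mul hnum ?_ (abs_nonneg _) hb0
    rw [abs_div, abs_of_pos (mul_pos hv0 hv0'), div_le_iff₀ (mul_pos hv0 hv0'), abs_sub_comm]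
    refine k1.trans ?_
    have h4 : 1 / 2 ≤ v * v' := by nlinarith
    nlinarith
  refine (abs_add_le _ _).trans ((add_le_add s1 s2).trans (le_of_eq ?_))
  ring

end

end Vale.Agent.P361.LRO.Dict
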