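import Vale.Agent.P361.LRO.Defs

/-! P361 LRO, dictionary: permutation network <-> products of matrices, definitions. -/

namespace Vale.Agent.P361.LRO.Dict

open Finset Matrix

noncomputable section

variable {R : Type*} [CommRing R] [Algebra ℝ R]

section A

variable {X : Type} [Fintype X] [DecidableEq X]

/-- Loop sum of a random permutation with a general `2 × 2` matrix at every node. -/
def NZ (μ : Equiv.Perm X → ℝ) (A : X → Matrix (Fin 2) (Fin 2) R) : R :=
  ∑ π, μ π • ∑ s : X → Fin 2, ∏ z, A z (s z) (s (π z))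

end A

section B

variable {V : Type} [Fintype V] [DecidableEq V]

/-- tensor product of one-site matrices -/
def layM (A : V → Matrix (Fin 2) (Fin 2) R) : Matrix (V → Fin 2) (V → Fin 2) R :=
  Matrix.of fun σ τ => ∏ x, A x (σ x) (τ x)

/-- the swap, with entries in `R` (`= swapM` for `R = ℝ`) -/
def swapR (x y : V) : Matrix (V → Fin 2) (V → Fin 2) R :=
  Matrix.of fun σ τ => if σ = τ ∘ Equiv.swap x y then 1 else 0

theorem swapR_real (x y : V) : (swapR x y : Matrix (V → Fin 2) (V → Fin 2) ℝ) = swapM x y := rfl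

/-- one gate -/
def gatR (x y : V) (p : ℝ) : Matrix (V → Fin 2) (V → Fin 2) R :=
  (1 - p) • (1 : Matrix (V → Fin 2) (V → Fin 2) R) + p • swapR x y

/-- all gates between two layers -/
def gatM (L : List (V × V)) (p : ℝ) : Matrix (V → Fin 2) (V → Fin 2) R :=
  (L.reverse.map fun e => gatR e.1 e.2 p).prod

/-- `down f n = f n * f (n-1) * ⋯ * f 1`. -/
def down {M : Type*} [Monoid M] (f : ℕ → M) : ℕ → M
  | 0 => 1
  | n + 1 => f (n + 1) * down f n

end B

end

end Vale.Agent.P361.LRO.Dict
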