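import Vale.Agent.P361.LRO.Defs

/-! P361 LRO, dictionary: permutation network <-> products of matrices. -/

namespace Vale.Agent.P361.LRO.Dict

open Finset Matrix

variable {R : Type*} [CommRing R] [Algebra ℝ R]

section A

variable {X : Type} [Fintype X] [DecidableEq X]

/-- a gate acting on a kernel -/
def gateOp (g : X × X × ℝ) (T : (X → Fin 2) → (X → Fin 2) → R) :
    (X → Fin 2) → (X → Fin 2) → R :=
  fun s t => (1 - g.2.2) • T s t + g.2.2 • T (s ∘ Equiv.swap g.1 g.2.1) t

/-- all gates of a list, the first one acts first -/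
def actL (l : List (X × X × ℝ)) (T : (X → Fin 2) → (X → Fin 2) → R) :
    (X → Fin 2) → (X → Fin 2) → R :=
  l.foldl (fun T g => gateOp g T) T

theorem law_sum (l : List (X × X × ℝ)) (σ : Equiv.Perm X)
    (T : (X → Fin 2) → (X → Fin 2) → R) :
    ∑ π, law l σ π • ∑ s : X → Fin 2, T s (s ∘ π) = ∑ s : X → Fin 2, actL l T s (s ∘ σ) := by
  induction l generalizing T with
  | nil =>
    simp only [law, actL, List.foldl_nil]
    rw [Finset.sum_eq_single σ]
    · simp
    · intro π _ hπ
      rw [Pi.single_eq_of_ne hπ, zero_smul]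
    · simp
  | cons g l ih =>
    have h1 : actL (g :: l) T = actL l (gateOp g T) := rfl
    rw [h1, ← ih]
    simp only [law, add_smul, Finset.sum_add_distrib, gateOp, smul_add]
    congr 1
    · refine Finset.sum_congr rfl fun π _ => ?_
      rw [← Finset.smul_sum, smul_smul, mul_comm]
    · rw [← Equiv.sum_comp (Equiv.mulLeft (Equiv.swap g.1 g.2.1))]
      refine Finset.sum_congr rfl fun π _ => ?_
      simp only [Equiv.coe_mulLeft]
      rw [← mul_assoc, Equiv.swap_mul_self, one_mul, mul_comm, mul_smul]
      rw [← Finset.smul_sum]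
      congr 2
      rw [← Equiv.sum_comp (Equiv.arrowCongr (Equiv.swap g.1 g.2.1) (Equiv.refl (Fin 2)))]
      refine Finset.sum_congr rfl fun s _ => ?_
      have e1 : (Equiv.arrowCongr (Equiv.swap g.1 g.2.1) (Equiv.refl (Fin 2))) s
          = s ∘ Equiv.swap g.1 g.2.1 := by
        funext x; simp [Equiv.arrowCongr]
      rw [e1]
      congr 1
      funext x
      simp
  
end A

end Vale.Agent.P361.LRO.Dict
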