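import Vale.Agent.P361.LRO.Dict.Base
import Vale.Agent.P361.LRO.Dict.Law

/-! P361 LRO, dictionary: layers and the trace formula. -/

namespace Vale.Agent.P361.LRO.Dict

open Finset Matrix

noncomputable section

variable {R : Type*} [CommRing R] [Algebra ℝ R]

section B

variable {V : Type} [Fintype V] [DecidableEq V] {N : ℕ}

/-- tensor product over the layers -/
def tens (A : Fin (N + 1) → Matrix (V → Fin 2) (V → Fin 2) R)
    (s t : Fin (N + 1) × V → Fin 2) : R :=
  ∏ k, A k (fun x => s (k, x)) (fun x => t (k, x))

omit [Algebra ℝ R] in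
theorem swapR_mul_apply (x y : V) (A : Matrix (V → Fin 2) (V → Fin 2) R) (σ τ : V → Fin 2) :
    (swapR x y * A : Matrix (V → Fin 2) (V → Fin 2) R) σ τ = A (σ ∘ Equiv.swap x y) τ := by
  rw [Matrix.mul_apply, Finset.sum_eq_single (σ ∘ Equiv.swap x y)]
  · have : σ = (σ ∘ Equiv.swap x y) ∘ Equiv.swap x y := by
      funext z; simp
    rw [swapR, Matrix.of_apply, if_pos this, one_mul]
  · intro ρ _ hρ
    rw [swapR, Matrix.of_apply, if_neg, zero_mul]
    intro h
    apply hρ
    rw [h]; funext z; simp
  · simp

theorem gateOp_tens (k : Fin (N + 1)) (x y : V) (p : ℝ)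
    (A : Fin (N + 1) → Matrix (V → Fin 2) (V → Fin 2) R) :
    gateOp ((k, x), (k, y), p) (tens A) = tens (Function.update A k (gatR x y p * A k)) := by
  funext s t
  have hprod : ∀ (B : Fin (N + 1) → Matrix (V → Fin 2) (V → Fin 2) R)
      (s : Fin (N + 1) × V → Fin 2), tens B s t
      = B k (fun x => s (k, x)) (fun x => t (k, x)) *
        ∏ j ∈ Finset.univ.erase k, B j (fun x => s (j, x)) (fun x => t (j, x)) := by
    intro B s
    exact (Finset.mul_prod_erase Finset.univ
      (fun j => B j (fun x => s (j, x)) (fun x => t (j, x))) (Finset.mem_univ k)).symm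
  have h1 : (fun z => (s ∘ Equiv.swap (k, x) (k, y)) (k, z))
      = (fun z => s (k, z)) ∘ Equiv.swap x y := by
    funext z
    simp only [Function.comp_apply]
    congr 1
    rcases eq_or_ne z x with rfl | hx
    · simp
    · rcases eq_or_ne z y with rfl | hy
      · simp
      · rw [Equiv.swap_apply_of_ne_of_ne hx hy, Equiv.swap_apply_of_ne_of_ne]
        · simpa using hx
        · simpa using hy
  have h2 : ∀ j ∈ Finset.univ.erase k, (fun z => (s ∘ Equiv.swap (k, x) (k, y)) (j, z))
      = (fun z => s (j, z)) := by
    intro j hj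
    have hjk : j ≠ k := Finset.ne_of_mem_erase hj
    funext z
    simp only [Function.comp_apply]
    rw [Equiv.swap_apply_of_ne_of_ne]
    · simp [hjk]
    · simp [hjk]
  have e2 : ∏ j ∈ Finset.univ.erase k, A j (fun x_1 => (s ∘ Equiv.swap (k, x) (k, y)) (j, x_1))
        (fun x => t (j, x)) = ∏ j ∈ Finset.univ.erase k, A j (fun x => s (j, x)) (fun x => t (j, x)) :=
    Finset.prod_congr rfl fun j hj => by rw [h2 j hj]
  have e3 : ∏ j ∈ Finset.univ.erase k, (Function.update A k (gatR x y p * A k)) j
      (fun x => s (j, x)) (fun x => t (j, x))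
      = ∏ j ∈ Finset.univ.erase k, A j (fun x => s (j, x)) (fun x => t (j, x)) :=
    Finset.prod_congr rfl fun j hj => by rw [Function.update_of_ne (Finset.ne_of_mem_erase hj)]
  simp only [gateOp]
  rw [hprod A s, hprod A (s ∘ _), hprod (Function.update A k _) s, h1, e2, e3,
    Function.update_self, gatR, Matrix.add_mul, Matrix.add_apply, Matrix.smul_mul, Matrix.smul_mul,
    Matrix.smul_apply, Matrix.smul_apply, one_mul, swapR_mul_apply, add_mul, smul_mul_assoc,
    smul_mul_assoc]

/-- the gates of the layer `k` -/
theorem actL_layer (k : Fin (N + 1)) (L : List (V × V)) (p : ℝ)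
    (A : Fin (N + 1) → Matrix (V → Fin 2) (V → Fin 2) R) :
    actL (L.map fun e => ((k, e.1), (k, e.2), p)) (tens A)
      = tens (Function.update A k (gatM L p * A k)) := by
  induction L generalizing A with
  | nil =>
    have : gatM (R := R) ([] : List (V × V)) p = 1 := rfl
    rw [this, one_mul, Function.update_eq_self]
    rfl
  | cons e L ih =>
    have h1 : actL ((e :: L).map fun e => ((k, e.1), (k, e.2), p)) (tens A)
        = actL (L.map fun e => ((k, e.1), (k, e.2), p))
          (gateOp ((k, e.1), (k, e.2), p) (tens A)) := rfl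
    have h2 : gatM (R := R) (e :: L) p = gatM L p * gatR e.1 e.2 p := by
      simp [gatM, List.reverse_cons, List.map_append, List.prod_append]
    rw [h1, gateOp_tens, ih, Function.update_self, Function.update_idem, h2, mul_assoc]

theorem actL_append {X : Type} [Fintype X] [DecidableEq X] (l₁ l₂ : List (X × X × ℝ))
    (T : (X → Fin 2) → (X → Fin 2) → R) : actL (l₁ ++ l₂) T = actL l₂ (actL l₁ T) := by
  simp [actL, List.foldl_append]

theorem actL_layers (ks : List (Fin (N + 1))) (hks : ks.Nodup) (L : List (V × V)) (p : ℝ)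
    (A : Fin (N + 1) → Matrix (V → Fin 2) (V → Fin 2) R) :
    actL (ks.flatMap fun k => L.map fun e => ((k, e.1), (k, e.2), p)) (tens A)
      = tens (fun k => if k ∈ ks then gatM L p * A k else A k) := by
  induction ks generalizing A with
  | nil => simp [actL]
  | cons k ks ih =>
    rw [List.flatMap_cons, actL_append, actL_layer, ih (List.nodup_cons.1 hks).2]
    congr 1
    funext j
    have hk := (List.nodup_cons.1 hks).1
    by_cases hj : j = k
    · subst hj
      simp [hk]
    · simp [hj, Function.update_of_ne hj]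

theorem actL_gates (L : List (V × V)) (p : ℝ)
    (A : Fin (N + 1) → Matrix (V → Fin 2) (V → Fin 2) R) :
    actL (gates L N p) (tens A)
      = tens (fun k => if k = Fin.last N then A k else gatM L p * A k) := by
  have h1 : gates L N p = ((List.finRange N).map Fin.castSucc).flatMap
      fun k => L.map fun e => ((k, e.1), (k, e.2), p) := by
    rw [gates, List.flatMap_map]
  rw [h1, actL_layers _ ((List.nodup_finRange N).map (Fin.castSucc_injective N))]
  congr 1
  funext k
  by_cases hk : k = Fin.last N
  · subst hk
    simp [Fin.castSucc_ne_last]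
  · obtain ⟨j, rfl⟩ := Fin.exists_castSucc_eq.2 hk
    simp [hk, List.mem_finRange]

end B

end

end Vale.Agent.P361.LRO.Dict
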