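import Vale.Agent.P361.LRO.Dict.Base
import Vale.Agent.P361.LRO.Trot.Linear

/-! P361 LRO, dictionary: powers of the one-step matrix against `exp (-t ham)`. -/

namespace Vale.Agent.P361.LRO.Dict

open Finset Matrix

noncomputable section

variable {V : Type} [Fintype V] [DecidableEq V]

/-- `1 + θ σ³` -/
def slc (θ : ℝ) : Matrix (Fin 2) (Fin 2) ℝ :=
  Matrix.diagonal fun a => 1 + θ * (if a = 0 then 1 else -1)

omit [DecidableEq V] in
/-- tensor product of diagonal matrices -/
theorem layM_diagonal {R : Type*} [CommRing R] [DecidableEq V] (d : V → Fin 2 → R) :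
    layM (fun x => Matrix.diagonal (d x)) = Matrix.diagonal fun σ : V → Fin 2 => ∏ x, d x (σ x) := by
  ext σ τ
  rw [layM, Matrix.of_apply]
  by_cases h : σ = τ
  · subst h
    rw [Matrix.diagonal_apply_eq]
    exact Finset.prod_congr rfl fun x _ => Matrix.diagonal_apply_eq _ _
  · rw [Matrix.diagonal_apply_ne _ h]
    obtain ⟨x, hx⟩ := Function.ne_iff.1 h
    exact Finset.prod_eq_zero (Finset.mem_univ x) (Matrix.diagonal_apply_ne _ hx)

/-- the list of generators of one step, `∑ = -β • ham` -/
def stepL (L : List (V × V)) (β : ℝ) (h : V → ℝ) : List (Matrix (V → Fin 2) (V → Fin 2) ℝ) :=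
  ((Finset.univ : Finset V).toList.map fun x => (β * h x / 2) • szM x) ++
    (L.reverse.map fun e => (-β) • hM e.1 e.2)

theorem stepL_sum (L : List (V × V)) (β : ℝ) (h : V → ℝ) :
    (stepL L β h).sum = (-β) • ham L h := by
  have h1 : ((Finset.univ : Finset V).toList.map fun x => (β * h x / 2) • szM x).sum
      = ∑ x, (β * h x / 2) • szM x := Finset.sum_map_toList _ _
  have h2 : (L.reverse.map fun e => (-β) • hM e.1 e.2).sum
      = (-β) • (L.map fun e => hM e.1 e.2).sum := by
    rw [List.map_reverse, List.sum_reverse, List.smul_sum, List.map_map]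
    rfl
  rw [stepL, List.sum_append, h1, h2, ham, smul_sub, Finset.smul_sum, sub_eq_add_neg, add_comm,
    ← Finset.sum_neg_distrib]
  congr 1
  refine Finset.sum_congr rfl fun x _ => ?_
  rw [smul_smul, ← neg_smul]
  congr 1
  ring

theorem stepL_prod (L : List (V × V)) (β : ℝ) (h : V → ℝ) (N : ℕ) :
    ((stepL L β h).map fun A => 1 + (N : ℝ)⁻¹ • A).prod
      = layM (fun x => slc (β * h x / (2 * N))) * gatM L (β / (2 * N)) := by
  rw [stepL, List.map_append, List.prod_append]
  congr 1
  · have h1 : (List.map (fun A : Matrix (V → Fin 2) (V → Fin 2) ℝ => 1 + (N : ℝ)⁻¹ • A)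
        ((Finset.univ : Finset V).toList.map fun x => (β * h x / 2) • szM x))
        = ((Finset.univ : Finset V).toList.map fun x => (fun σ : V → Fin 2 =>
            1 + β * h x / (2 * N) * (if σ x = 0 then 1 else -1))).map
            (Matrix.diagonalRingHom (V → Fin 2) ℝ) := by
      rw [List.map_map, List.map_map]
      refine List.map_congr_left fun x _ => ?_
      simp only [Function.comp_apply, Matrix.diagonalRingHom_apply]
      ext σ τ
      rw [Matrix.add_apply, Matrix.smul_apply, Matrix.smul_apply, szM]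
      by_cases hst : σ = τ
      · subst hst
        simp only [Matrix.one_apply_eq, Matrix.diagonal_apply_eq, smul_eq_mul]
        field_simp
      · rw [Matrix.one_apply_ne hst, Matrix.diagonal_apply_ne _ hst, Matrix.diagonal_apply_ne _ hst]
        simp
    rw [h1, ← map_list_prod, Matrix.diagonalRingHom_apply]
    have h2 : layM (fun x => slc (β * h x / (2 * N))) = _ := layM_diagonal (V := V)
      (fun x a => 1 + (β * h x / (2 * N)) * (if a = 0 then 1 else -1))
    rw [h2]
    congr 1
    rw [Finset.prod_map_toList]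
    funext σ
    rw [Finset.prod_apply]
  · rw [gatM, List.map_map]
    congr 1
    refine List.map_congr_left fun e _ => ?_
    simp only [Function.comp_apply]
    rw [gatR, swapR_real, hM, smul_smul, smul_smul, smul_sub, sub_smul, one_smul]
    have e1 : (N : ℝ)⁻¹ * -β * (1 / 2) = -(β / (2 * N)) := by
      rw [div_eq_mul_inv β, mul_inv]
      ring
    rw [e1, neg_smul, neg_smul]
    abel

section norm

attribute [local instance] Matrix.linftyOpNormedRing Matrix.linftyOpNormedAlgebra

theorem entry_le {ι : Type*} [Fintype ι] [DecidableEq ι] (A : Matrix ι ι ℝ) (i j : ι) :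
    |A i j| ≤ ‖A‖ := by
  rw [Matrix.linfty_opNorm_def]
  have h1 : ‖A i j‖₊ ≤ ∑ j, ‖A i j‖₊ :=
    Finset.single_le_sum (f := fun j => ‖A i j‖₊) (fun _ _ => zero_le) (Finset.mem_univ j)
  have h2 : ∑ j, ‖A i j‖₊ ≤ Finset.univ.sup fun i => ∑ j, ‖A i j‖₊ :=
    Finset.le_sup (f := fun i => ∑ j, ‖A i j‖₊) (Finset.mem_univ i)
  exact_mod_cast h1.trans h2

theorem one_le' {ι : Type*} [Fintype ι] [DecidableEq ι] : ‖(1 : Matrix ι ι ℝ)‖ ≤ 1 := by
  rw [Matrix.linfty_opNorm_def]
  have : (Finset.univ.sup fun i : ι => ∑ j, ‖(1 : Matrix ι ι ℝ) i j‖₊) ≤ 1 := by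
    refine Finset.sup_le fun i _ => ?_
    rw [Finset.sum_eq_single i]
    · simp
    · intro j _ hj
      rw [Matrix.one_apply_ne hj.symm]; simp
    · simp
  exact_mod_cast this

/-- The uniform Lie-Trotter estimate for the physical circuit. -/
theorem step_pow (L : List (V × V)) (β : ℝ) : ∃ C : ℝ, 0 ≤ C ∧ ∀ N : ℕ, 1 ≤ N → ∀ k : ℕ, k ≤ N →
    ∀ h : V → ℝ, (∀ x, 0 ≤ h x ∧ h x ≤ 1) → ∀ σ τ,
    |((layM (fun x => slc (β * h x / (2 * N))) * gatM L (β / (2 * N)) :
        Matrix (V → Fin 2) (V → Fin 2) ℝ) ^ k) σ τ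
      - NormedSpace.exp ((-(β * k / N)) • ham L h) σ τ| ≤ C / N := by
  set c : ℝ := (∑ x : V, |β| / 2 * ‖(szM x : Matrix (V → Fin 2) (V → Fin 2) ℝ)‖)
    + (L.map fun e => |β| * ‖(hM e.1 e.2 : Matrix (V → Fin 2) (V → Fin 2) ℝ)‖).sum with hc
  refine ⟨2 * c ^ 2 * Real.exp (2 * c), by positivity, ?_⟩
  intro N hN k hk h hh σ τ
  have hnorm : ((stepL L β h).map norm).sum ≤ c := by
    rw [stepL, List.map_append, List.sum_append, hc]
    refine add_le_add ?_ ?_
    · rw [List.map_map, Finset.sum_map_toList]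
      refine Finset.sum_le_sum fun x _ => ?_
      simp only [Function.comp_apply]
      rw [norm_smul]
      refine mul_le_mul_of_nonneg_right ?_ (norm_nonneg _)
      rw [Real.norm_eq_abs, abs_div, abs_mul, abs_of_nonneg (hh x).1, abs_two]
      have := mul_le_mul_of_nonneg_left (hh x).2 (abs_nonneg β)
      linarith
    · rw [List.map_reverse, List.map_reverse, List.sum_reverse, List.map_map]
      apply le_of_eq
      congr 1
      refine List.map_congr_left fun e _ => ?_
      simp only [Function.comp_apply]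
      rw [norm_smul, norm_neg, Real.norm_eq_abs]
  have key := Trot.trotter_linear (one_le' (ι := V → Fin 2)) (stepL L β h) hnorm hN hk
  rw [stepL_prod, stepL_sum, smul_smul] at key
  have e1 : (k : ℝ) / N * -β = -(β * k / N) := by ring
  rw [e1] at key
  refine le_trans ?_ key
  rw [← Matrix.sub_apply]
  exact entry_le _ _ _

end norm

end

end Vale.Agent.P361.LRO.Dict
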