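import Vale.Agent.P361.LRO.Dict.Layers
import Vale.Agent.P361.LRO.Bridge.Cyc

/-! P361 LRO, dictionary (D2): the trace formula of the physical circuit. -/

namespace Vale.Agent.P361.LRO.Dict

open Finset Matrix

noncomputable section

section down

variable {M : Type*} [Monoid M]

theorem reverse_prod_eq_down (n : ℕ) (f : ℕ → M) :
    ((List.ofFn fun k : Fin n => f (k + 1)).reverse).prod = down f n := by
  induction n with
  | zero => simp [down]
  | succ n ih =>
    rw [List.ofFn_succ', List.concat_eq_append, List.reverse_append, List.reverse_singleton,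
      List.singleton_append, List.prod_cons]
    simp only [Fin.val_last, Fin.val_castSucc]
    rw [ih]; rfl

theorem down_swap (G : M) (T : ℕ → M) (n : ℕ) :
    down (fun k => G * T k) n * G = G * down (fun k => T k * G) n := by
  induction n with
  | zero => simp [down]
  | succ n ih =>
    simp only [down]
    rw [mul_assoc (G * T (n + 1)), ih]
    simp only [mul_assoc]

theorem down_congr {f g : ℕ → M} {n : ℕ} (h : ∀ k, 1 ≤ k → k ≤ n → f k = g k) :
    down f n = down g n := by
  induction n with
  | zero => rfl
  | succ n ih =>
    simp only [down]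
    rw [ih fun k h1 h2 => h k h1 (by omega), h (n + 1) (by omega) le_rfl]

theorem down_const (a : M) (n : ℕ) : down (fun _ => a) n = a ^ n := by
  induction n with
  | zero => simp [down]
  | succ n ih => simp only [down]; rw [ih, pow_succ']

theorem down_split (f : ℕ → M) (m n : ℕ) :
    down f (m + n) = down (fun k => f (n + k)) m * down f n := by
  induction m with
  | zero => simp [down]
  | succ m ih =>
    have : m + 1 + n = (m + n) + 1 := by omega
    rw [this]
    simp only [down]
    rw [ih, mul_assoc]
    congr 2
    omega

end down

variable {R : Type} [CommRing R] [Algebra ℝ R]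

section B

variable {V : Type} [Fintype V] [DecidableEq V] {N : ℕ}

omit [Algebra ℝ R] in
theorem sum_tens_base (B : Fin (N + 1) → Matrix (V → Fin 2) (V → Fin 2) R) :
    ∑ s : Fin (N + 1) × V → Fin 2, tens B s (s ∘ base N)
      = Matrix.trace (B 0 * ((List.ofFn fun k : Fin N => B k.succ).reverse).prod) := by
  classical
  rw [← Br.cyclic, ← (Equiv.curry (Fin (N + 1)) V (Fin 2)).sum_comp]
  rfl

/-- (D2) The trace formula. -/
theorem NZ_phys (L : List (V × V)) (β : ℝ) (N : ℕ)
    (A : Fin (N + 1) × V → Matrix (Fin 2) (Fin 2) R) :
    NZ (phys L β N) A = Matrix.trace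
      (down (fun k => layM (fun x => A (Fin.ofNat (N + 1) k, x)) * gatM L (β / (2 * N))) N *
        layM (fun x => A (0, x))) := by
  set p : ℝ := β / (2 * N) with hp
  set T : Fin (N + 1) → Matrix (V → Fin 2) (V → Fin 2) R := fun k => layM fun x => A (k, x)
    with hT
  have h0 : NZ (phys L β N) A
      = ∑ π, law (gates L N p) (base N) π • ∑ s : Fin (N + 1) × V → Fin 2, tens T s (s ∘ π) := by
    rw [NZ, phys]
    refine Finset.sum_congr rfl fun π _ => ?_
    congr 1
    refine Finset.sum_congr rfl fun s _ => ?_
    rw [tens, Fintype.prod_prod_type]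
    rfl
  rw [h0, law_sum, actL_gates, sum_tens_base]
  rcases N with _ | n
  · simp [down, hT]
  · have e0 : (if (0 : Fin (n + 1 + 1)) = Fin.last (n + 1) then T 0 else gatM L p * T 0)
        = gatM L p * T 0 := by
      rw [if_neg]
      exact (Fin.last_pos).ne
    have e1 : ((List.ofFn fun k : Fin (n + 1) => (fun k : Fin (n + 1 + 1) =>
        if k = Fin.last (n + 1) then T k else gatM L p * T k) k.succ).reverse).prod
        = T (Fin.last (n + 1)) * down (fun k => gatM L p * T (Fin.ofNat (n + 1 + 1) k)) n := by
      rw [List.ofFn_succ', List.concat_eq_append, List.reverse_append, List.reverse_singleton,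
        List.singleton_append, List.prod_cons]
      congr 1
      · simp
      · rw [← reverse_prod_eq_down]
        congr 3
        funext k
        have hk : k.castSucc.succ ≠ Fin.last (n + 1) := by
          intro h
          have := congrArg Fin.val h
          simp at this
          omega
        have hk' : k.castSucc.succ = Fin.ofNat (n + 1 + 1) ((k : ℕ) + 1) := by
          apply Fin.ext
          rw [Fin.val_ofNat, Nat.mod_eq_of_lt (by omega)]
          simp
        simp only [if_neg hk]
        rw [hk']
    have elast : Fin.ofNat (n + 1 + 1) (n + 1) = Fin.last (n + 1) := by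
      apply Fin.ext
      rw [Fin.val_ofNat, Nat.mod_eq_of_lt (by omega)]
      simp
    simp only [e0] at *
    rw [e1]
    rw [Matrix.trace_mul_comm (gatM L p * T 0)]
    have e2 : T (Fin.last (n + 1)) * down (fun k => gatM L p * T (Fin.ofNat (n + 1 + 1) k)) n *
        (gatM L p * T 0)
        = down (fun k => T (Fin.ofNat (n + 1 + 1) k) * gatM L p) (n + 1) * T 0 := by
      rw [← mul_assoc, mul_assoc (T (Fin.last (n + 1))), down_swap, ← mul_assoc, down, elast]
      
    rw [e2]

end B

end

end Vale.Agent.P361.LRO.Dict
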